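import Vale.Agent.P047.Comp

namespace Vale.Agent.Results.P047.Violation

open Finset
open scoped BigOperators

/-- The sign `±1` encoded by a bit; `{-1,1}^n` is encoded as `Fin n → Bool`. -/
def sgn (b : Bool) : ℝ := if b then 1 else -1

/-- The Fourier coefficient `E[f(X) ∏_{i ∈ S} X_i]`. -/
noncomputable def fourier {n : ℕ} (f : (Fin n → Bool) → ℝ) (S : Finset (Fin n)) : ℝ :=
  (∑ x : Fin n → Bool, f x * ∏ i ∈ S, sgn (x i)) / 2 ^ n

open Classical in
/-- The degree: the largest `|S|` with a nonzero Fourier coefficient. -/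
noncomputable def deg {n : ℕ} (f : (Fin n → Bool) → ℝ) : ℕ :=
  (univ.filter fun S : Finset (Fin n) => fourier f S ≠ 0).sup card

open Vale.Agent.P047

theorem deg_le {n d : ℕ} {f : (Fin n → Bool) → ℝ} (h : f ∈ V (Fin n) d) : deg f ≤ d := by
  classical
  refine Finset.sup_le fun S hS => ?_
  by_contra hlt
  apply (mem_filter.1 hS).2
  exact div_eq_zero_iff.2 (Or.inl (V_orth h (not_le.1 hlt)))

theorem sum_fourier {n : ℕ} (f : (Fin n → Bool) → ℝ) :
    ∑ i, fourier f {i} = 𝔼 x, f x * ∑ i, sg (x i) := by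
  simp only [fourier, prod_singleton, Fintype.expect_eq_sum_div_card, mul_sum, ← sum_div]
  rw [sum_comm]
  simp [sgn, sg]

theorem result :
    (∀ C : ℝ, ∃ (n : ℕ) (f : (Fin n → Bool) → ℝ), 1 ≤ n ∧ (∀ x, f x = 1 ∨ f x = -1) ∧
      C * √(deg f) < ∑ i, fourier f {i}) ∧
    (∃ δ c : ℝ, 0 < δ ∧ 0 < c ∧ ∀ d : ℕ, 1 ≤ d → ∃ (n : ℕ) (f : (Fin n → Bool) → ℝ),
      1 ≤ n ∧ (∀ x, f x = 1 ∨ f x = -1) ∧ deg f ≤ d ∧
      c * (d : ℝ) ^ (1 / 2 + δ) ≤ ∑ i, fourier f {i}) := by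
  constructor
  · intro C
    obtain ⟨n, d, f, h1, h2, hd, h3⟩ := boolean |C|
    have h4 : |C| * √(deg f) ≤ |C| * √d :=
      mul_le_mul_of_nonneg_left (Real.sqrt_le_sqrt (by exact_mod_cast deg_le h2)) (abs_nonneg C)
    rw [← sum_fourier] at h3
    refine ⟨n, f, ?_, h1, lt_of_le_of_lt ((mul_le_mul_of_nonneg_right (le_abs_self C)
      (by positivity)).trans h4) h3⟩
    rcases n with _ | n
    · simp only [univ_eq_empty, sum_empty] at h3
      exact absurd h3 (not_lt.2 (by positivity))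
    · omega
  · obtain ⟨δ, c, hδ, hc, h⟩ := poly
    refine ⟨δ, c, hδ, hc, fun d hd => ?_⟩
    obtain ⟨n, f, h1, h2, h3⟩ := h d hd
    rw [← sum_fourier] at h3
    refine ⟨n, f, ?_, h1, deg_le h2, h3⟩
    rcases n with _ | n
    · simp only [univ_eq_empty, sum_empty] at h3
      exact absurd h3 (not_le.2 (by positivity))
    · omega

end Vale.Agent.Results.P047.Violation
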